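import Mathlib

/-!
# Gaussian moments of cells
-/

open MeasureTheory

namespace Vale.Agent.P226

/-- The Gaussian first moment `∫_A x dγ_d` of a set. -/
noncomputable def moment {d : ℕ} (A : Set (EuclideanSpace ℝ (Fin d))) : EuclideanSpace ℝ (Fin d) :=
  ∫ x in A, x ∂(ProbabilityTheory.stdGaussian (EuclideanSpace ℝ (Fin d)))

/-- The sum of the squared norms of the cell moments. -/
noncomputable def score {d k : ℕ} (A : Fin k → Set (EuclideanSpace ℝ (Fin d))) : ℝ :=
  ∑ i, ‖moment (A i)‖ ^ 2

end Vale.Agent.P226
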