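import Vale.Agent.P226.Tail
import Vale.Agent.P226.Defs

/-!
# The union bound for `E max_i ⟪z_i, X⟫`
-/

open MeasureTheory ProbabilityTheory Real Set
open scoped NNReal RealInnerProductSpace Function

namespace Vale.Agent.P226

variable {d : ℕ}

lemma inner_law (z : EuclideanSpace ℝ (Fin d)) :
    (stdGaussian (EuclideanSpace ℝ (Fin d))).map (fun x => ⟪z, x⟫)
      = gaussianReal 0 ⟨‖z‖ ^ 2, sq_nonneg _⟩ := by
  have h := IsGaussian.map_eq_gaussianReal (μ := stdGaussian (EuclideanSpace ℝ (Fin d))) (innerSL ℝ z)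
  rw [integral_strongDual_stdGaussian, variance_dual_stdGaussian, innerSL_apply_norm] at h
  have he : ⇑(innerSL ℝ z) = fun x => ⟪z, x⟫ := by ext x; rfl
  rw [he] at h
  rw [h]
  congr 1
  exact NNReal.eq (Real.coe_toNNReal _ (sq_nonneg _))

/-- Excess over a threshold in one direction. -/
lemma integral_excess {b C : ℝ} (hb : 0 < b) (z : EuclideanSpace ℝ (Fin d))
    (hC : z ≠ 0 → (b / ‖z‖) * tailMean (b / ‖z‖) ≤ C) :
    ∫ x, max (⟪z, x⟫ - b) 0 ∂stdGaussian (EuclideanSpace ℝ (Fin d)) ≤ C / b * ‖z‖ ^ 2 := by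
  by_cases hz : z = 0
  · subst hz
    simp [max_eq_right (show (0 : ℝ) - b ≤ 0 by linarith), show -b ≤ 0 by linarith]
  have hs : 0 < ‖z‖ := norm_pos_iff.2 hz
  have hf : Continuous fun y : ℝ => max (y - b) 0 := by fun_prop
  have hg : Continuous fun x : EuclideanSpace ℝ (Fin d) => ⟪z, x⟫ := by fun_prop
  have e1 : ∫ x, max (⟪z, x⟫ - b) 0 ∂stdGaussian (EuclideanSpace ℝ (Fin d))
      = ∫ y, max (y - b) 0 ∂gaussianReal 0 ⟨‖z‖ ^ 2, sq_nonneg _⟩ := by
    rw [← inner_law z, integral_map hg.aemeasurable hf.aestronglyMeasurable]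
  have e2 : gaussianReal 0 ⟨‖z‖ ^ 2, sq_nonneg _⟩
      = (gaussianReal 0 1).map (fun y => ‖z‖ * y) := by
    rw [gaussianReal_map_const_mul, mul_zero, mul_one]
    rfl
  rw [e1, e2, integral_map (by fun_prop) hf.aestronglyMeasurable]
  have e3 : ∀ y : ℝ, max (‖z‖ * y - b) 0 = ‖z‖ * max (y - b / ‖z‖) 0 := fun y => by
    rw [mul_max_of_nonneg _ _ hs.le, mul_zero]
    congr 1
    field_simp
  simp only [e3, integral_const_mul]
  have h := hC hz
  have : ‖z‖ * tailMean (b / ‖z‖) = ‖z‖ ^ 2 / b * (b / ‖z‖ * tailMean (b / ‖z‖)) := by field_simp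
  rw [← tailMean, this, show C / b * ‖z‖ ^ 2 = ‖z‖ ^ 2 / b * C by ring]
  exact mul_le_mul_of_nonneg_left h (by positivity)

variable {k : ℕ} {A : Fin k → Set (EuclideanSpace ℝ (Fin d))}

/-- The master inequality `√F ≤ a + C / a`. -/
theorem sqrt_score_le (hm : ∀ i, NullMeasurableSet (A i) (stdGaussian (EuclideanSpace ℝ (Fin d))))
    (hd : Pairwise (AEDisjoint (stdGaussian (EuclideanSpace ℝ (Fin d))) on A)) {a C : ℝ}
    (ha : 0 < a) (hF : 0 < score A)
    (hC : ∀ i, moment (A i) ≠ 0 →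
      (a * √(score A) / ‖moment (A i)‖) * tailMean (a * √(score A) / ‖moment (A i)‖) ≤ C) :
    √(score A) ≤ a + C / a := by
  set g := stdGaussian (EuclideanSpace ℝ (Fin d)) with hg
  set F := score A with hFdef
  set z := fun i => moment (A i) with hz
  set b := a * √F with hbdef
  have hsF : 0 < √F := Real.sqrt_pos.2 hF
  have hb : 0 < b := mul_pos ha hsF
  have hi : ∀ w, Integrable (fun x => ⟪w, x⟫) g := fun w =>
    IsGaussian.integrable_dual g (innerSL ℝ w)
  have hP : ∀ j, Integrable (fun x => max (⟪z j, x⟫ - b) 0) g := fun j =>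
    ((hi (z j)).sub (integrable_const b)).pos_part
  set G := fun x => b + ∑ j, max (⟪z j, x⟫ - b) 0 with hG
  have hGi : Integrable G g := (integrable_const b).add (integrable_finsetSum _ fun j _ => hP j)
  have hG0 : ∀ x, 0 ≤ G x := fun x =>
    add_nonneg hb.le (Finset.sum_nonneg fun j _ => le_max_right _ _)
  have hpt : ∀ i x, ⟪z i, x⟫ ≤ G x := fun i x => by
    have h1 := Finset.single_le_sum (f := fun j => max (⟪z j, x⟫ - b) 0)
      (fun j _ => le_max_right _ _) (Finset.mem_univ i)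
    have h2 := le_max_left (⟪z i, x⟫ - b) 0
    simp only [hG]
    linarith
  have key : ∀ i, ‖z i‖ ^ 2 ≤ ∫ x in A i, G x ∂g := fun i => by
    rw [← real_inner_self_eq_norm_sq]
    have hzi : ⟪z i, z i⟫ = ⟪z i, ∫ x in A i, x ∂g⟫ := rfl
    rw [hzi, ← integral_inner (IsGaussian.integrable_fun_id).integrableOn]
    exact setIntegral_mono_on₀ (hi _).integrableOn hGi.integrableOn (hm i) fun x _ => hpt i x
  have hsum : F ≤ b + C / b * F := by
    calc F = ∑ i, ‖z i‖ ^ 2 := rfl
      _ ≤ ∑ i, ∫ x in A i, G x ∂g := Finset.sum_le_sum fun i _ => key i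
      _ = ∫ x in ⋃ i, A i, G x ∂g := by
        rw [integral_iUnion_ae hm hd hGi.integrableOn, tsum_fintype]
      _ ≤ ∫ x, G x ∂g := setIntegral_le_integral hGi (ae_of_all _ hG0)
      _ = b + ∑ j, ∫ x, max (⟪z j, x⟫ - b) 0 ∂g := by
        rw [integral_add (integrable_const b) (integrable_finsetSum _ fun j _ => hP j),
          integral_finsetSum _ fun j _ => hP j, integral_const]
        simp
      _ ≤ b + ∑ j, C / b * ‖z j‖ ^ 2 := by
        gcongr with j _
        exact integral_excess hb (z j) (hC j)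
      _ = b + C / b * F := by rw [← Finset.mul_sum]; rfl
  have hF2 : √F * √F = F := Real.mul_self_sqrt hF.le
  have h2 : √F * √F ≤ (a + C / a) * √F := by
    rw [hF2]
    refine hsum.trans (le_of_eq ?_)
    rw [hbdef, add_mul]
    congr 1
    field_simp
    linear_combination (-C) * hF2
  exact le_of_mul_le_mul_right h2 hsF

lemma score_nonneg : 0 ≤ score A := Finset.sum_nonneg fun _ _ => sq_nonneg _

/-- The dimension-free bound `81/200`. -/
theorem score_le (hm : ∀ i, NullMeasurableSet (A i) (stdGaussian (EuclideanSpace ℝ (Fin d))))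
    (hd : Pairwise (AEDisjoint (stdGaussian (EuclideanSpace ℝ (Fin d))) on A)) :
    score A ≤ 81 / 200 := by
  rcases (score_nonneg (A := A)).eq_or_lt with h | h
  · rw [← h]; norm_num
  have hb := sqrt_score_le hm hd (a := 7 / 22) (C := 101249 / 1000000) (by norm_num) h fun i hi =>
    mul_tailMean_le (by positivity)
  have h2 := pow_le_pow_left₀ (Real.sqrt_nonneg _) hb 2
  rw [Real.sq_sqrt h.le] at h2
  norm_num at h2 ⊢
  linarith

/-- The conjectured bound when no cell carries more than one seventh of the total. -/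
theorem score_le_of_small (hm : ∀ i, NullMeasurableSet (A i) (stdGaussian (EuclideanSpace ℝ (Fin d))))
    (hd : Pairwise (AEDisjoint (stdGaussian (EuclideanSpace ℝ (Fin d))) on A))
    (hsmall : ∀ i, 7 * ‖moment (A i)‖ ^ 2 ≤ score A) :
    score A ≤ 9 / (8 * π) := by
  rcases (score_nonneg (A := A)).eq_or_lt with h | h
  · rw [← h]; positivity
  have hb := sqrt_score_le hm hd (a := 2 / 5) (C := 792 / 10000) (by norm_num) h fun i hi => by
    refine mul_tailMean_le_of_ge ?_
    have hs : 0 < ‖moment (A i)‖ := norm_pos_iff.2 hi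
    rw [le_div_iff₀ hs]
    refine le_of_sq_le_sq ?_ (by positivity)
    rw [mul_pow, mul_pow, Real.sq_sqrt h.le]
    nlinarith [hsmall i]
  have h2 := pow_le_pow_left₀ (Real.sqrt_nonneg _) hb 2
  rw [Real.sq_sqrt h.le] at h2
  rw [le_div_iff₀ (by positivity)]
  nlinarith [Real.pi_lt_d4, Real.pi_pos]

end Vale.Agent.P226
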