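import Mathlib

/-!
# An upper bound for `t * E (g - t)⁺`, `g` standard Gaussian
-/

open MeasureTheory ProbabilityTheory Real Set Filter
open scoped NNReal

namespace Vale.Agent.P226

/-- The Gaussian tail first moment `E (g - t)⁺`. -/
noncomputable def tailMean (t : ℝ) : ℝ := ∫ x, max (x - t) 0 ∂(gaussianReal 0 1)

lemma integrable_posPart (t : ℝ) : Integrable (fun x => max (x - t) 0) (gaussianReal 0 1) :=
  (((IsGaussian.integrable_id).sub (integrable_const t)).pos_part)

lemma pdf_eq (x : ℝ) : gaussianPDFReal 0 1 x = (√(2 * π))⁻¹ * exp (-(1 / 2) * x ^ 2) := by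
  rw [gaussianPDFReal]
  simp only [NNReal.coe_one, mul_one, sub_zero]
  congr 1
  congr 1
  ring

lemma inv_sqrt_le : (√(2 * π))⁻¹ ≤ 39895 / 100000 := by
  have h : 250659 / 100000 ≤ √(2 * π) := by
    refine Real.le_sqrt_of_sq_le ?_
    nlinarith [Real.pi_gt_d4]
  have h0 : (0 : ℝ) < √(2 * π) := by positivity
  rw [inv_le_comm₀ h0 (by norm_num)]
  norm_num at h ⊢
  linarith

lemma exp_neg_le {u : ℝ} (hu : 0 ≤ u) : exp (-u) ≤ 1 - u + u ^ 2 / 2 := by
  have h := quadratic_le_exp_of_nonneg hu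
  have hp : 0 < 1 + u + u ^ 2 / 2 := by positivity
  rw [exp_neg]
  calc (exp u)⁻¹ ≤ (1 + u + u ^ 2 / 2)⁻¹ := inv_anti₀ hp h
    _ ≤ 1 - u + u ^ 2 / 2 := by
      rw [inv_le_iff_one_le_mul₀ hp]
      nlinarith [pow_nonneg hu 4]

lemma hasDerivAt_halfGauss (x : ℝ) :
    HasDerivAt (fun x => -exp (-(1 / 2) * x ^ 2)) (x * exp (-(1 / 2) * x ^ 2)) x := by
  have h := (((hasDerivAt_pow 2 x).const_mul (-(1 / 2 : ℝ))).exp).neg
  exact h.congr_deriv (by simp; ring)

lemma tendsto_halfGauss :
    Tendsto (fun x : ℝ => -exp (-(1 / 2) * x ^ 2)) atTop (nhds 0) := by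
  have h : Tendsto (fun x : ℝ => -(1 / 2) * x ^ 2) atTop atBot :=
    (tendsto_pow_atTop (by norm_num)).const_mul_atTop_of_neg (by norm_num)
  simpa [Function.comp_def] using (Real.tendsto_exp_atBot.comp h).neg

/-- Upper bound by a polynomial, from `exp (-u) ≤ 1 - u + u²/2`. -/
lemma tailMean_le_poly {t : ℝ} (ht : 0 ≤ t) :
    tailMean t ≤ (√(2 * π))⁻¹ * (1 + t ^ 2 / 2 - t ^ 4 / 24 + t ^ 6 / 240) - t / 2 := by
  set c := (√(2 * π))⁻¹ with hc
  have hc0 : 0 ≤ c := by positivity
  set e : ℝ → ℝ := fun x => exp (-(1 / 2) * x ^ 2) with he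
  have ie : Integrable e := integrable_exp_neg_mul_sq (by norm_num)
  have ixe : Integrable fun x => x * e x := integrable_mul_exp_neg_mul_sq (by norm_num)
  have hsplit : ∀ x, gaussianPDFReal 0 1 x • max (x - t) 0
      = c * (Ioi 0).indicator (fun x => x * e x) x - c * t * (Ioi 0).indicator e x
        + c * (Ioc 0 t).indicator (fun x => (t - x) * e x) x := by
    intro x
    rw [pdf_eq, smul_eq_mul, ← hc]
    by_cases h1 : 0 < x
    · by_cases h2 : x ≤ t
      · simp [h1, h2, he, max_eq_right (show x - t ≤ 0 by linarith)]; ring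
      · simp [h1, h2, he, max_eq_left (show 0 ≤ x - t by linarith)]; ring
    · simp [h1, max_eq_right (show x - t ≤ 0 by linarith)]
  have i3 : IntegrableOn (fun x => (t - x) * e x) (Ioc 0 t) := by
    have : Continuous fun x => (t - x) * e x := by simp only [he]; fun_prop
    exact this.integrableOn_Ioc
  have j1 : Integrable fun x => c * (Ioi (0 : ℝ)).indicator (fun x => x * e x) x :=
    (ixe.indicator measurableSet_Ioi).const_mul _
  have j2 : Integrable fun x => c * t * (Ioi (0 : ℝ)).indicator e x :=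
    (ie.indicator measurableSet_Ioi).const_mul _
  have j3 : Integrable fun x => c * (Ioc (0 : ℝ) t).indicator (fun x => (t - x) * e x) x :=
    ((integrable_indicator_iff measurableSet_Ioc).2 i3).const_mul _
  have e1 : ∫ x in Ioi (0 : ℝ), x * e x = 1 := by
    rw [integral_Ioi_of_hasDerivAt_of_nonneg' (fun x _ => hasDerivAt_halfGauss x)
      (fun x hx => mul_nonneg (le_of_lt hx) (exp_pos _).le) tendsto_halfGauss]
    simp
  have e2 : c * ∫ x in Ioi (0 : ℝ), e x = 1 / 2 := by
    simp only [he]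
    rw [integral_gaussian_Ioi, hc, show π / (1 / 2) = 2 * π by ring]
    field_simp
  have e3 : ∫ x in Ioc 0 t, (t - x) * e x ≤ t ^ 2 / 2 - t ^ 4 / 24 + t ^ 6 / 240 := by
    have hpt : ∀ x ∈ Ioc 0 t, (t - x) * e x ≤ (t - x) * (1 - x ^ 2 / 2 + x ^ 4 / 8) := by
      intro x hx
      refine mul_le_mul_of_nonneg_left ?_ (by linarith [hx.2])
      have := exp_neg_le (u := x ^ 2 / 2) (by positivity)
      simp only [he]
      rw [show -(1 / 2) * x ^ 2 = -(x ^ 2 / 2) by ring]
      linarith [show (x ^ 2 / 2) ^ 2 / 2 = x ^ 4 / 8 by ring]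
    have hcont : Continuous fun x => (t - x) * (1 - x ^ 2 / 2 + x ^ 4 / 8) := by fun_prop
    refine (setIntegral_mono_on i3 hcont.integrableOn_Ioc measurableSet_Ioc hpt).trans (le_of_eq ?_)
    rw [← intervalIntegral.integral_of_le ht]
    rw [intervalIntegral.integral_eq_sub_of_hasDerivAt
      (f := fun x => t * (x - x ^ 3 / 6 + x ^ 5 / 40) - (x ^ 2 / 2 - x ^ 4 / 8 + x ^ 6 / 48))
      (fun x _ => by
        have h := ((((hasDerivAt_id x).sub ((hasDerivAt_pow 3 x).div_const 6)).add
          ((hasDerivAt_pow 5 x).div_const 40)).const_mul t).sub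
          ((((hasDerivAt_pow 2 x).div_const 2).sub ((hasDerivAt_pow 4 x).div_const 8)).add
          ((hasDerivAt_pow 6 x).div_const 48))
        exact h.congr_deriv (by simp; ring))
      (hcont.intervalIntegrable _ _)]
    ring
  have hval : tailMean t = c * (∫ x in Ioi (0 : ℝ), x * e x) - t * (c * (∫ x in Ioi (0 : ℝ), e x))
      + c * (∫ x in Ioc 0 t, (t - x) * e x) := by
    rw [tailMean, integral_gaussianReal_eq_integral_smul one_ne_zero]
    simp only [hsplit]
    rw [integral_add (f := fun x => c * (Ioi (0 : ℝ)).indicator (fun x => x * e x) x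
        - c * t * (Ioi (0 : ℝ)).indicator e x) (j1.sub j2) j3, integral_sub j1 j2,
      integral_const_mul, integral_const_mul, integral_const_mul,
      integral_indicator measurableSet_Ioi, integral_indicator measurableSet_Ioi,
      integral_indicator measurableSet_Ioc]
    ring
  rw [hval, e1, e2]
  nlinarith

lemma mul_tailMean_le_exp {t : ℝ} (ht : 0 < t) : t * tailMean t ≤ exp (-(t ^ 2 / 2) - 1) := by
  rw [tailMean, ← integral_const_mul]
  have hint : Integrable (fun x => exp (-(t ^ 2) - 1) * exp (t * x)) (gaussianReal 0 1) :=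
    (integrable_exp_mul_gaussianReal t).const_mul _
  refine (integral_mono ((integrable_posPart t).const_mul t) hint fun x => ?_).trans (le_of_eq ?_)
  · rw [← exp_add]
    rcases le_total 0 (x - t) with h | h
    · rw [max_eq_left h]
      have := add_one_le_exp (t * (x - t) - 1)
      rw [show -(t ^ 2) - 1 + t * x = t * (x - t) - 1 by ring]
      linarith
    · rw [max_eq_right h, mul_zero]; exact (exp_pos _).le
  · rw [integral_const_mul, show ∫ x, exp (t * x) ∂gaussianReal 0 1
        = mgf (fun x => x) (gaussianReal 0 1) t from rfl, mgf_fun_id_gaussianReal, ← exp_add]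
    congr 1
    simp
    ring

lemma mul_tailMean_large {t : ℝ} (ht : 2 ≤ t) : t * tailMean t ≤ 7 / 100 := by
  refine (mul_tailMean_le_exp (by linarith)).trans ?_
  refine (exp_le_exp.2 (show -(t ^ 2 / 2) - 1 ≤ -3 by nlinarith)).trans ?_
  rw [exp_neg, inv_le_comm₀ (exp_pos 3) (by norm_num)]
  have h := Real.exp_one_gt_d9
  have h3 : exp 3 = exp 1 * exp 1 * exp 1 := by rw [← exp_add, ← exp_add]; norm_num
  rw [h3]
  nlinarith [mul_le_mul (show (27 / 10 : ℝ) ≤ exp 1 by linarith)
    (show (27 / 10 : ℝ) ≤ exp 1 by linarith) (by norm_num) (exp_pos 1).le]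

lemma mul_tailMean_small {t : ℝ} (ht : 0 ≤ t) (ht2 : t ≤ 2) :
    t * tailMean t ≤
      t * (39895 / 100000 * (1 + t ^ 2 / 2 - t ^ 4 / 24 + t ^ 6 / 240) - t / 2) := by
  refine mul_le_mul_of_nonneg_left ((tailMean_le_poly ht).trans ?_) ht
  have hQ : 0 ≤ 1 + t ^ 2 / 2 - t ^ 4 / 24 + t ^ 6 / 240 := by
    nlinarith [pow_nonneg ht 6, mul_nonneg (sq_nonneg t) (show 0 ≤ 4 - t ^ 2 by nlinarith)]
  linarith [mul_le_mul_of_nonneg_right inv_sqrt_le hQ]

/-- The global bound. -/
theorem mul_tailMean_le {t : ℝ} (ht : 0 ≤ t) : t * tailMean t ≤ 101249 / 1000000 := by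
  rcases le_total t 2 with h | h
  · refine (mul_tailMean_small ht h).trans ?_
    nlinarith [sq_nonneg (t - 612 / 1000), mul_nonneg (sq_nonneg (t - 612 / 1000)) ht,
      mul_nonneg (sq_nonneg (t - 612 / 1000)) (sub_nonneg.2 h),
      mul_nonneg (mul_nonneg (sq_nonneg (t - 612 / 1000)) ht) (sub_nonneg.2 h),
      mul_nonneg (mul_nonneg (sq_nonneg (t - 612 / 1000)) ht) (sq_nonneg t)]
  · linarith [mul_tailMean_large h]

/-- The bound for large arguments. -/
theorem mul_tailMean_le_of_ge {t : ℝ} (ht : 1058 / 1000 ≤ t) : t * tailMean t ≤ 792 / 10000 := by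
  rcases le_total t 2 with h | h
  · refine (mul_tailMean_small (by linarith) h).trans ?_
    have a := sub_nonneg.2 ht
    have b := sub_nonneg.2 h
    nlinarith [mul_nonneg a b, mul_nonneg (mul_nonneg a b) a, mul_nonneg (mul_nonneg a b) b,
      mul_nonneg (mul_nonneg a a) (mul_nonneg b b), mul_nonneg (mul_nonneg a a) (mul_nonneg a b),
      mul_nonneg (mul_nonneg b b) (mul_nonneg a b)]
  · linarith [mul_tailMean_large h]

end Vale.Agent.P226
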